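import Vale.Agent.P207.BlkD2

/-!
# P207: the Jacobian of `exp_m` as a Gram determinant
-/

open scoped Manifold ContDiff ENNReal Topology
open Bundle MeasureTheory Set Filter

noncomputable section

namespace Vale.Agent.P207

open Vale.Agent.P255 (RMetric coefIn Gam Riem IsGeo Metric Npc ExpSys toMetric geo expg cc curvOp)
open Vale.Agent.P207.D2

variable {n : ℕ} {M : Type} [TopologicalSpace M] [ChartedSpace (EV n) M]
  [IsManifold 𝓘(ℝ, EV n) ∞ M] [CompactSpace M] [T2Space M]

/-- the Jacobian of `exp_m` at `v` is the square root of the Gram determinant of the images of an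
orthonormal basis -/
theorem jac_eq_sqrt_gram {g : RMetric (EV n) M} {m : M} {v : EV n}
    (b : Module.Basis (Fin n) ℝ (EV n))
    (hb : ∀ i j, (mt g).ip m (b i) (b j) = if i = j then 1 else 0) :
    jac g m v = dens0 g m * Real.sqrt (Matrix.of fun i j : Fin n =>
      (mt g).coef (expg (mt g) m v) (chartAt (EV n) (expg (mt g) m v) (expg (mt g) m v))
        (fderiv ℝ (fun w => chartAt (EV n) (expg (mt g) m v) (expg (mt g) m w)) v (b i))
        (fderiv ℝ (fun w => chartAt (EV n) (expg (mt g) m v) (expg (mt g) m w)) v (b j))).det := by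
  set x := expg (mt g) m v with hx
  set D := fderiv ℝ (fun w => chartAt (EV n) x (expg (mt g) m w)) v with hD
  set Γ₁ : Matrix (Fin n) (Fin n) ℝ := Matrix.of fun i j : Fin n =>
    (mt g).coef x (chartAt (EV n) x x) (EuclideanSpace.single i 1) (EuclideanSpace.single j 1)
    with hΓ₁
  set Γ₀ : Matrix (Fin n) (Fin n) ℝ := Matrix.of fun i j : Fin n =>
    (mt g).coef m (chartAt (EV n) m m) (EuclideanSpace.single i 1) (EuclideanSpace.single j 1)
    with hΓ₀
  set e := (EuclideanSpace.basisFun (Fin n) ℝ).toBasis with hee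
  have hei : ∀ i, e i = EuclideanSpace.single i (1 : ℝ) := by intro i; simp [hee]
  set L₀ : EV n →L[ℝ] EV n := LinearMap.toContinuousLinearMap (e.constr ℝ b) with hL₀
  have hL : ∀ i, L₀ (EuclideanSpace.single i 1) = b i := by
    intro i
    rw [← hei, hL₀]
    simp
  have hA := det_gram ((mt g).coef x (chartAt (EV n) x x)) (D ∘L L₀)
  have hB := det_gram ((mt g).coef m (chartAt (EV n) m m)) L₀
  have hAm : (Matrix.of fun i j : Fin n => (mt g).coef x (chartAt (EV n) x x)
      ((D ∘L L₀) (EuclideanSpace.single i 1)) ((D ∘L L₀) (EuclideanSpace.single j 1))) =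
      Matrix.of fun i j : Fin n => (mt g).coef x (chartAt (EV n) x x) (D (b i)) (D (b j)) := by
    ext i j
    rw [Matrix.of_apply, ContinuousLinearMap.comp_apply, ContinuousLinearMap.comp_apply, hL, hL,
      Matrix.of_apply]
  have hBm : (Matrix.of fun i j : Fin n => (mt g).coef m (chartAt (EV n) m m)
      (L₀ (EuclideanSpace.single i 1)) (L₀ (EuclideanSpace.single j 1))) = 1 := by
    ext i j
    rw [Matrix.of_apply, hL, hL, Matrix.one_apply]
    exact hb i j
  rw [hAm] at hA
  rw [hBm, Matrix.det_one] at hB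
  have hdet : (D ∘L L₀).det = D.det * L₀.det := LinearMap.det_comp _ _
  rw [hdet] at hA
  set P := (Matrix.of fun i j : Fin n => (mt g).coef x (chartAt (EV n) x x) (D (b i))
    (D (b j))).det with hP
  have hL0 : L₀.det ^ 2 ≠ 0 := by
    intro h0
    rw [h0, zero_mul] at hB
    exact one_ne_zero hB
  have hL0' : 0 < L₀.det ^ 2 := lt_of_le_of_ne (sq_nonneg _) (Ne.symm hL0)
  have hB' : 1 = L₀.det ^ 2 * Γ₀.det := hB
  have hA' : P = (D.det * L₀.det) ^ 2 * Γ₁.det := hA
  have hΓ₀pos : 0 < Γ₀.det := by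
    by_contra hc
    have := mul_nonpos_of_nonneg_of_nonpos hL0'.le (not_lt.1 hc)
    linarith
  have hj : jac g m v = |D.det| * Real.sqrt Γ₁.det := rfl
  have hd : dens0 g m = Real.sqrt Γ₀.det := rfl
  have h1 : D.det ^ 2 * Γ₁.det = Γ₀.det * P := by
    rw [hA']
    have : (D.det * L₀.det) ^ 2 * Γ₁.det = L₀.det ^ 2 * (D.det ^ 2 * Γ₁.det) := by ring
    rw [this, ← mul_assoc, mul_comm Γ₀.det, ← hB', one_mul]
  rw [hj, hd]
  rw [← Real.sqrt_sq_eq_abs, ← Real.sqrt_mul (sq_nonneg _), h1, Real.sqrt_mul hΓ₀pos.le]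

end Vale.Agent.P207
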